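import Vale.Agent.P196.H513.FinalMod
import Vale.Agent.P196.H798.Dec4
import Vale.Agent.P196.Cut.Fact
import Vale.Agent.P196.Cut.StmtA979
import Vale.Agent.P196.Cut.StmtB
import Vale.Agent.P196.Cut.StmtC979
import Vale.Agent.P196.Cut.StmtE
import Vale.Agent.P196.Cut.StmtF

/-!
# P196: an infinite finitely presented simple amenable group
-/

namespace Vale.Agent.P196.H979

open Vale.Agent.P196.Cut

theorem stmtB : StmtB := stmtB_of stmtA979

theorem stmtFact : StmtFact := fact_of stmtB stmtC979 stmtE stmtF

theorem main : ∃ (G : Type) (_ : Group G), Infinite G ∧ Group.IsFinitelyPresented G ∧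
    IsSimpleGroup G ∧ IsAmenable G :=
  H513.final_mod (H798.stmtDec (Fin 12)) stmtFact stmtB stmtC979

end Vale.Agent.P196.H979
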